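import Vale.Agent.P085Z.Defs

/-! Geometric series of operators and small algebraic facts. -/

set_option autoImplicit false

open scoped InnerProductSpace Topology
open Filter

namespace Vale.Agent.P085Z.Inf

open Vale.Agent.P085

variable {H : Type*} [NormedAddCommGroup H] [InnerProductSpace ℂ H] [CompleteSpace H]

theorem hasSum_mem (N : VonNeumannAlgebra H) {f : ℕ → (H →L[ℂ] H)} {x : H →L[ℂ] H}
    (h : HasSum f x) (hf : ∀ n, f n ∈ N) : x ∈ N :=
  (vn_isClosed N).mem_of_tendsto h.tendsto_sum_nat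
    (Eventually.of_forall fun _ => sum_mem fun n _ => hf n)

theorem hasSum_sa {f : ℕ → (H →L[ℂ] H)} {x : H →L[ℂ] H} (h : HasSum f x)
    (hf : ∀ n, star (f n) = f n) : star x = x := by
  have h1 := h.star
  simp only [hf] at h1
  exact h1.unique h

theorem exists_geo (u : ℕ → (H →L[ℂ] H)) (hu : ∀ n, ‖u n‖ ≤ 1) :
    ∃ X : H →L[ℂ] H, HasSum (fun n => (((1 / 4 : ℝ) ^ n : ℝ) : ℂ) • u n) X ∧ ‖X‖ ≤ 4 / 3 := by
  have hg : HasSum (fun n : ℕ => (1 / 4 : ℝ) ^ n) (4 / 3) := by
    have := hasSum_geometric_of_lt_one (r := (1 / 4 : ℝ)) (by norm_num) (by norm_num)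
    rwa [show (1 - 1 / 4 : ℝ)⁻¹ = 4 / 3 by norm_num] at this
  have hb : ∀ n, ‖(((1 / 4 : ℝ) ^ n : ℝ) : ℂ) • u n‖ ≤ (1 / 4 : ℝ) ^ n := by
    intro n
    rw [norm_smul, Complex.norm_real, Real.norm_of_nonneg (by positivity)]
    exact mul_le_of_le_one_right (by positivity) (hu n)
  have hs : Summable fun n => (((1 / 4 : ℝ) ^ n : ℝ) : ℂ) • u n :=
    Summable.of_norm_bounded hg.summable hb
  exact ⟨_, hs.hasSum, tsum_of_norm_bounded hg hb⟩

theorem star_real_smul (c : ℝ) {x : H →L[ℂ] H} (hx : star x = x) :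
    star ((c : ℂ) • x) = (c : ℂ) • x := by
  rw [star_smul, hx]
  simp only [RCLike.star_def, Complex.conj_ofReal]

theorem norm_pj_le {p : H →L[ℂ] H} (hs : star p = p) (hp : p * p = p) : ‖p‖ ≤ 1 := by
  have h : ‖p‖ * ‖p‖ = ‖p‖ := by rw [← CStarRing.norm_star_mul_self, hs, hp]
  nlinarith [norm_nonneg p]

theorem norm_pi_le {v : H →L[ℂ] H} (hv : v * star v * v = v) : ‖v‖ ≤ 1 := by
  refine norm_le_one_of_sq (norm_pj_le (by rw [star_mul, star_star]) ?_)
  rw [mul_assoc, ← mul_assoc v, hv]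

/-- real and imaginary parts -/
theorem re_im (x : H →L[ℂ] H) : ∃ a b : H →L[ℂ] H, star a = a ∧ star b = b ∧
    x = a + Complex.I • b ∧ a = (1 / 2 : ℂ) • (x + star x) ∧
    b = (Complex.I / 2) • (star x - x) := by
  refine ⟨_, _, ?_, ?_, ?_, rfl, rfl⟩
  · rw [star_smul, star_add, star_star, add_comm]
    simp
  · rw [star_smul, star_sub, star_star, ← neg_sub (star x) x, smul_neg, ← neg_smul]
    congr 1
    simp [neg_div]
  · rw [smul_smul, show Complex.I * (Complex.I / 2) = -(1 / 2 : ℂ) by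
      rw [← mul_div_assoc, Complex.I_mul_I]; ring, neg_smul, smul_add, smul_sub]
    have : x = (1 / 2 : ℂ) • x + (1 / 2 : ℂ) • x := by
      rw [← add_smul]; norm_num
    rw [neg_sub]
    nth_rewrite 1 [this]
    abel

/-- two contractions on complementary reducing subspaces -/
theorem norm_glue {a b p : H →L[ℂ] H} (hs : star p = p) (hp : p * p = p) (ha : a * p = p * a)
    (hb : b * p = p * b) (hna : ‖a‖ ≤ 1) (hnb : ‖b‖ ≤ 1) : ‖a * (1 - p) + b * p‖ ≤ 1 := by
  apply norm_le_one_of_star_mul_self_le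
  have h0 : (1 - p) * p = 0 := by rw [sub_mul, one_mul, hp, sub_self]
  have h0' : p * (1 - p) = 0 := by rw [mul_sub, mul_one, hp, sub_self]
  have hq : star (1 - p) = 1 - p := by rw [star_sub, star_one, hs]
  have hq2 : (1 - p) * (1 - p) = 1 - p := by rw [mul_sub, mul_one, h0, sub_zero]
  have ha' : a * (1 - p) = (1 - p) * a := by rw [mul_sub, sub_mul, ha, mul_one, one_mul]
  have c1 : star (a * (1 - p)) * (b * p) = 0 := by
    rw [ha', hb, star_mul, hq, mul_assoc, ← mul_assoc (1 - p), h0, zero_mul, mul_zero]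
  have c2 : star (b * p) * (a * (1 - p)) = 0 := by
    rw [ha', hb, star_mul, hs, mul_assoc, ← mul_assoc p, h0', zero_mul, mul_zero]
  have d1 := star_left_conjugate_le_conjugate (star_mul_self_le_one hna) (1 - p)
  have d2 := star_left_conjugate_le_conjugate (star_mul_self_le_one hnb) p
  rw [mul_one, hq, hq2] at d1
  rw [mul_one, hs, hp] at d2
  rw [star_add, add_mul, mul_add, mul_add, c1, c2, add_zero, zero_add, star_mul, star_mul, hq, hs]
  have e1 : (1 - p) * star a * (a * (1 - p)) = (1 - p) * (star a * a) * (1 - p) := by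
    simp only [mul_assoc]
  have e2 : p * star b * (b * p) = p * (star b * b) * p := by simp only [mul_assoc]
  rw [e1, e2]
  calc _ ≤ (1 - p) + p := add_le_add d1 d2
    _ = 1 := by rw [sub_add_cancel]

end Vale.Agent.P085Z.Inf
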